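import Mathlib

/-!
A constraint on unbiased vectors in `ℂ⁶`: six fourth roots of unity, or six sixth roots of unity, never sum to a number
of squared modulus `6`, because `6` is neither of the form `a² + b²` nor of the form `a² - ab + b²`.
-/

namespace Vale.Agent.Results.P355.A_butson

open Complex

/-- The primitive cube root of unity. -/
noncomputable def ω : ℂ := ⟨-1 / 2, √3 / 2⟩

theorem ω_sq : ω ^ 2 + ω + 1 = 0 := by
  have h3 : (√3 : ℝ) * √3 = 3 := Real.mul_self_sqrt (by norm_num)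
  apply Complex.ext
  · simp [ω, pow_two]
    nlinarith
  · simp [ω, pow_two]
    nlinarith

theorem root4_cases (z : ℂ) (hz : z ^ 4 = 1) : ∃ a b : ℤ, z = a + b * I := by
  have h : (z - 1) * (z + 1) * ((z - I) * (z + I)) = 0 := by
    have hI : I ^ 2 = -1 := I_sq
    linear_combination hz - (z ^ 2 - 1) * hI
  rcases mul_eq_zero.mp h with h | h
  · rcases mul_eq_zero.mp h with h | h
    · exact ⟨1, 0, by simp; linear_combination h⟩
    · exact ⟨-1, 0, by simp; linear_combination h⟩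
  · rcases mul_eq_zero.mp h with h | h
    · exact ⟨0, 1, by simp; linear_combination h⟩
    · exact ⟨0, -1, by simp; linear_combination h⟩

theorem root6_cases (z : ℂ) (hz : z ^ 6 = 1) : ∃ a b : ℤ, z = a + b * ω := by
  have hω := ω_sq
  have h : (z - 1) * (z + 1) * ((z - ω) * (z + ω + 1)) * ((z + ω) * (z - ω - 1)) = 0 := by
    have e1 : (z - ω) * (z + ω + 1) = z ^ 2 + z + 1 - (ω ^ 2 + ω + 1) := by ring
    have e2 : (z + ω) * (z - ω - 1) = z ^ 2 - z + 1 - (ω ^ 2 + ω + 1) := by ring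
    rw [e1, e2, hω]
    linear_combination hz
  rcases mul_eq_zero.mp h with h | h
  · rcases mul_eq_zero.mp h with h | h
    · rcases mul_eq_zero.mp h with h | h
      · exact ⟨1, 0, by simp; linear_combination h⟩
      · exact ⟨-1, 0, by simp; linear_combination h⟩
    · rcases mul_eq_zero.mp h with h | h
      · exact ⟨0, 1, by simp; linear_combination h⟩
      · exact ⟨-1, -1, by simp; linear_combination h⟩
  · rcases mul_eq_zero.mp h with h | h
    · exact ⟨0, -1, by simp; linear_combination h⟩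
    · exact ⟨1, 1, by simp; linear_combination h⟩

theorem core4 (w : Fin 6 → ℂ) (hw : ∀ i, w i ^ 4 = 1) : ‖∑ i, w i‖ ^ 2 ≠ 6 := by
  have hsum : ∀ s : Finset (Fin 6), ∃ a b : ℤ, ∑ i ∈ s, w i = a + b * I := by
    intro s
    induction s using Finset.induction_on with
    | empty => exact ⟨0, 0, by simp⟩
    | insert x s hx ih =>
      obtain ⟨a, b, h⟩ := ih
      obtain ⟨c, d, h'⟩ := root4_cases (w x) (hw x)
      refine ⟨c + a, d + b, ?_⟩
      rw [Finset.sum_insert hx, h, h']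
      push_cast
      ring
  obtain ⟨a, b, h⟩ := hsum Finset.univ
  rw [h, Complex.sq_norm]
  intro h6
  have hn : Complex.normSq ((a : ℂ) + b * I) = (a : ℝ) ^ 2 + (b : ℝ) ^ 2 := by
    simp [Complex.normSq_apply, pow_two]
  rw [hn] at h6
  have h7 : a ^ 2 + b ^ 2 = 6 := by exact_mod_cast h6
  have ha : a ≤ 2 := by nlinarith [sq_nonneg b]
  have ha' : -2 ≤ a := by nlinarith [sq_nonneg b]
  have hb : b ≤ 2 := by nlinarith [sq_nonneg a]
  have hb' : -2 ≤ b := by nlinarith [sq_nonneg a]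
  interval_cases a <;> interval_cases b <;> omega

theorem core6 (w : Fin 6 → ℂ) (hw : ∀ i, w i ^ 6 = 1) : ‖∑ i, w i‖ ^ 2 ≠ 6 := by
  have hsum : ∀ s : Finset (Fin 6), ∃ a b : ℤ, ∑ i ∈ s, w i = a + b * ω := by
    intro s
    induction s using Finset.induction_on with
    | empty => exact ⟨0, 0, by simp⟩
    | insert x s hx ih =>
      obtain ⟨a, b, h⟩ := ih
      obtain ⟨c, d, h'⟩ := root6_cases (w x) (hw x)
      refine ⟨c + a, d + b, ?_⟩
      rw [Finset.sum_insert hx, h, h']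
      push_cast
      ring
  obtain ⟨a, b, h⟩ := hsum Finset.univ
  rw [h, Complex.sq_norm]
  intro h6
  have h3 : (√3 : ℝ) * √3 = 3 := Real.mul_self_sqrt (by norm_num)
  have hn : Complex.normSq ((a : ℂ) + b * ω) = (a : ℝ) ^ 2 - a * b + (b : ℝ) ^ 2 := by
    simp [Complex.normSq_apply, ω, pow_two]
    nlinarith
  rw [hn] at h6
  have h7 : a ^ 2 - a * b + b ^ 2 = 6 := by exact_mod_cast h6
  have ha : a ≤ 2 := by nlinarith [sq_nonneg (2 * b - a), sq_nonneg (a + 3)]
  have ha' : -2 ≤ a := by nlinarith [sq_nonneg (2 * b - a), sq_nonneg (a - 3)]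
  have hb : b ≤ 2 := by nlinarith [sq_nonneg (2 * a - b), sq_nonneg (b + 3)]
  have hb' : -2 ≤ b := by nlinarith [sq_nonneg (2 * a - b), sq_nonneg (b - 3)]
  interval_cases a <;> interval_cases b <;> omega

/-- Let `b, c ∈ ℂ⁶`. If, up to one common phase `τ`, the six numbers `6 * conj (b k) * c k` are roots of unity of
order dividing `q`, where `q ∣ 4` or `q ∣ 6`, then `|⟨b, c⟩|² ≠ 1/6`. For two unit vectors unbiased to the standard
basis those six numbers have modulus one and sum to `6⟨b, c⟩`. -/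
theorem result {q : ℕ} (hq : q ∣ 4 ∨ q ∣ 6) (b c : Fin 6 → ℂ) (τ : ℂ) (hτ : ‖τ‖ = 1)
    (h : ∀ k, (τ * (6 * ((starRingEnd ℂ) (b k) * c k))) ^ q = 1) :
    ‖∑ k, (starRingEnd ℂ) (b k) * c k‖ ^ 2 ≠ 1 / 6 := by
  set w : Fin 6 → ℂ := fun k => τ * (6 * ((starRingEnd ℂ) (b k) * c k)) with hw
  have hfac : ∑ k, w k = (τ * 6) * ∑ k, (starRingEnd ℂ) (b k) * c k := by
    rw [Finset.mul_sum]
    refine Finset.sum_congr rfl fun k _ => ?_
    simp only [hw]
    ring
  have hnorm : ‖τ * 6‖ = 6 := by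
    rw [norm_mul, hτ]
    norm_num
  intro hc
  have hw6 : ‖∑ k, w k‖ ^ 2 = 6 := by
    rw [hfac, norm_mul, hnorm, mul_pow, hc]
    norm_num
  rcases hq with ⟨m, hm⟩ | ⟨m, hm⟩
  · refine core4 w (fun k => ?_) hw6
    rw [hm, pow_mul, h k, one_pow]
  · refine core6 w (fun k => ?_) hw6
    rw [hm, pow_mul, h k, one_pow]

end Vale.Agent.Results.P355.A_butson
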