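import Mathlib

/-!
Two bases of `ℂ^6` whose coordinates are (up to a common rephasing of the coordinates and a phase for each
vector) `1/√6` times Eisenstein integers cannot be unbiased: the inner product of two such vectors, times `6`,
is an Eisenstein integer, and `a² - a b + b² = 6` has no integer solution. The same for Gaussian integers:
`a² + b² = 6` has no integer solution.
-/

namespace Vale.Agent.Results.P355.A_parity

/-- The primitive cube root of unity `ω = (-1 + √3 i) / 2`. -/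
noncomputable def cubeRoot : ℂ := (-1 + (Real.sqrt 3 : ℂ) * Complex.I) / 2

/-- The Eisenstein integers `a + b ω`, as a subset of `ℂ`. -/
def eisenstein : Set ℂ := {z | ∃ a b : ℤ, z = (a : ℂ) + (b : ℂ) * cubeRoot}

/-- The Gaussian integers `a + b i`, as a subset of `ℂ`. -/
def gaussian : Set ℂ := {z | ∃ a b : ℤ, z = (a : ℂ) + (b : ℂ) * Complex.I}

/-- Two families of six vectors of `ℂ^6` are unbiased: `|⟨b, c⟩|² = 1/6` for every `b` in the first and `c` in the second. -/
def IsUnbiasedPair (B C : Fin 6 → Fin 6 → ℂ) : Prop :=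
  ∀ i j, ‖∑ k, (starRingEnd ℂ) (B i k) * C j k‖ ^ 2 = 1 / 6

/-- Every vector `B j` has coordinates `α D_k a_k / √6` with `|α| = 1` and all `a_k` in `S`. -/
def IsTyped (S : Set ℂ) (D : Fin 6 → ℂ) (B : Fin 6 → Fin 6 → ℂ) : Prop :=
  ∀ j, ∃ (α : ℂ) (a : Fin 6 → ℂ), ‖α‖ = 1 ∧ (∀ k, a k ∈ S) ∧
    ∀ k, B j k = α * D k * a k / (Real.sqrt 6 : ℂ)

lemma sqrt3_sq : (Real.sqrt 3 : ℂ) * (Real.sqrt 3 : ℂ) = 3 := by
  have h : Real.sqrt 3 * Real.sqrt 3 = 3 := Real.mul_self_sqrt (by norm_num)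
  exact_mod_cast h

lemma cubeRoot_rel : cubeRoot * cubeRoot + cubeRoot + 1 = 0 := by
  unfold cubeRoot
  have h := sqrt3_sq
  have hI := Complex.I_mul_I
  have : ((-1 + (Real.sqrt 3 : ℂ) * Complex.I) / 2) * ((-1 + (Real.sqrt 3 : ℂ) * Complex.I) / 2)
      + (-1 + (Real.sqrt 3 : ℂ) * Complex.I) / 2 + 1
      = (1 / 4) * (((Real.sqrt 3 : ℂ) * (Real.sqrt 3 : ℂ)) * (Complex.I * Complex.I) + 3) := by ring
  rw [this, h, hI]
  ring

lemma conj_cubeRoot : (starRingEnd ℂ) cubeRoot = -1 - cubeRoot := by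
  unfold cubeRoot
  simp only [map_div₀, map_add, map_mul, map_neg, map_one, Complex.conj_ofReal, Complex.conj_I]
  have h2 : (starRingEnd ℂ) (2 : ℂ) = 2 := Complex.conj_ofNat 2
  rw [h2]
  ring

lemma normSq_eis (a b : ℤ) :
    Complex.normSq ((a : ℂ) + (b : ℂ) * cubeRoot) = ((a ^ 2 - a * b + b ^ 2 : ℤ) : ℝ) := by
  have h := Complex.mul_conj ((a : ℂ) + (b : ℂ) * cubeRoot)
  have h1 : ((a : ℂ) + (b : ℂ) * cubeRoot) * (starRingEnd ℂ) ((a : ℂ) + (b : ℂ) * cubeRoot)
      = (((a ^ 2 - a * b + b ^ 2 : ℤ) : ℝ) : ℂ) := by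
    simp only [map_add, map_mul, map_intCast, conj_cubeRoot]
    push_cast
    have hr := cubeRoot_rel
    linear_combination (-(b : ℂ) ^ 2) * hr
  rw [h1] at h
  exact_mod_cast h.symm

lemma normSq_gau (a b : ℤ) :
    Complex.normSq ((a : ℂ) + (b : ℂ) * Complex.I) = ((a ^ 2 + b ^ 2 : ℤ) : ℝ) := by
  have h := Complex.mul_conj ((a : ℂ) + (b : ℂ) * Complex.I)
  have h1 : ((a : ℂ) + (b : ℂ) * Complex.I) * (starRingEnd ℂ) ((a : ℂ) + (b : ℂ) * Complex.I)
      = (((a ^ 2 + b ^ 2 : ℤ) : ℝ) : ℂ) := by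
    simp only [map_add, map_mul, map_intCast, Complex.conj_I]
    push_cast
    linear_combination (-(b : ℂ) ^ 2) * Complex.I_mul_I
  rw [h1] at h
  exact_mod_cast h.symm

/-- `a² - a b + b² = 6` has no integer solution: it is odd, or divisible by `4`. -/
lemma eis_form_ne (a b : ℤ) : a ^ 2 - a * b + b ^ 2 ≠ 6 := by
  intro h
  have h1 : (a ^ 2 - a * b + b ^ 2) % 4 = 2 := by rw [h]; norm_num
  have ha : a % 4 = 0 ∨ a % 4 = 1 ∨ a % 4 = 2 ∨ a % 4 = 3 := by omega
  have hb : b % 4 = 0 ∨ b % 4 = 1 ∨ b % 4 = 2 ∨ b % 4 = 3 := by omega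
  rcases ha with ha | ha | ha | ha <;> rcases hb with hb | hb | hb | hb <;>
    simp [pow_two, Int.add_emod, Int.sub_emod, Int.mul_emod, ha, hb] at h1

/-- `a² + b² = 6` has no integer solution, modulo `8`. -/
lemma gau_form_ne (a b : ℤ) : a ^ 2 + b ^ 2 ≠ 6 := by
  intro h
  have h1 : (a ^ 2 + b ^ 2) % 8 = 6 := by rw [h]; norm_num
  have ha : a % 8 = 0 ∨ a % 8 = 1 ∨ a % 8 = 2 ∨ a % 8 = 3 ∨ a % 8 = 4 ∨ a % 8 = 5 ∨ a % 8 = 6 ∨ a % 8 = 7 := by omega
  have hb : b % 8 = 0 ∨ b % 8 = 1 ∨ b % 8 = 2 ∨ b % 8 = 3 ∨ b % 8 = 4 ∨ b % 8 = 5 ∨ b % 8 = 6 ∨ b % 8 = 7 := by omega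
  rcases ha with ha | ha | ha | ha | ha | ha | ha | ha <;>
    rcases hb with hb | hb | hb | hb | hb | hb | hb | hb <;>
    simp [pow_two, Int.add_emod, Int.mul_emod, ha, hb] at h1

lemma eis_conj_mul {z w : ℂ} (hz : z ∈ eisenstein) (hw : w ∈ eisenstein) :
    (starRingEnd ℂ) z * w ∈ eisenstein := by
  obtain ⟨a, b, rfl⟩ := hz
  obtain ⟨c, d, rfl⟩ := hw
  refine ⟨a * c + b * d - b * c, a * d - b * c, ?_⟩
  simp only [map_add, map_mul, map_intCast, conj_cubeRoot]
  push_cast
  have hr := cubeRoot_rel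
  linear_combination (-(b : ℂ) * d) * hr

lemma gau_conj_mul {z w : ℂ} (hz : z ∈ gaussian) (hw : w ∈ gaussian) :
    (starRingEnd ℂ) z * w ∈ gaussian := by
  obtain ⟨a, b, rfl⟩ := hz
  obtain ⟨c, d, rfl⟩ := hw
  refine ⟨a * c + b * d, a * d - b * c, ?_⟩
  simp only [map_add, map_mul, map_intCast, Complex.conj_I]
  push_cast
  linear_combination (-(b : ℂ) * d) * Complex.I_mul_I

lemma eis_sum {ι : Type} (s : Finset ι) (f : ι → ℂ) (h : ∀ i ∈ s, f i ∈ eisenstein) :
    ∑ i ∈ s, f i ∈ eisenstein := by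
  classical
  induction s using Finset.induction_on with
  | empty => exact ⟨0, 0, by simp⟩
  | insert x s hx ih =>
    rw [Finset.sum_insert hx]
    obtain ⟨a, b, hab⟩ := h x (Finset.mem_insert_self _ _)
    obtain ⟨c, d, hcd⟩ := ih (fun i hi => h i (Finset.mem_insert_of_mem hi))
    refine ⟨a + c, b + d, ?_⟩
    rw [hab, hcd]
    push_cast
    ring

lemma gau_sum {ι : Type} (s : Finset ι) (f : ι → ℂ) (h : ∀ i ∈ s, f i ∈ gaussian) :
    ∑ i ∈ s, f i ∈ gaussian := by
  classical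
  induction s using Finset.induction_on with
  | empty => exact ⟨0, 0, by simp⟩
  | insert x s hx ih =>
    rw [Finset.sum_insert hx]
    obtain ⟨a, b, hab⟩ := h x (Finset.mem_insert_self _ _)
    obtain ⟨c, d, hcd⟩ := ih (fun i hi => h i (Finset.mem_insert_of_mem hi))
    refine ⟨a + c, b + d, ?_⟩
    rw [hab, hcd]
    push_cast
    ring

/-- The common computation. -/
lemma not_unbiased_of {S : Set ℂ} {D : Fin 6 → ℂ} (hD : ∀ k, ‖D k‖ = 1)
    (hcm : ∀ {z w : ℂ}, z ∈ S → w ∈ S → (starRingEnd ℂ) z * w ∈ S)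
    (hsum : ∀ f : Fin 6 → ℂ, (∀ i, f i ∈ S) → ∑ i, f i ∈ S)
    (hn : ∀ z ∈ S, Complex.normSq z ≠ 6)
    {B C : Fin 6 → Fin 6 → ℂ} (hB : IsTyped S D B) (hC : IsTyped S D C) : ¬ IsUnbiasedPair B C := by
  intro hU
  obtain ⟨α, a, hα, ha, hBk⟩ := hB 0
  obtain ⟨β, b, hβ, hb, hCk⟩ := hC 0
  have h := hU 0 0
  have hs6 : ((Real.sqrt 6 : ℝ) : ℂ) * ((Real.sqrt 6 : ℝ) : ℂ) = 6 := by
    have h6 : Real.sqrt 6 * Real.sqrt 6 = 6 := Real.mul_self_sqrt (by norm_num)
    exact_mod_cast h6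
  have hs0 : ((Real.sqrt 6 : ℝ) : ℂ) ≠ 0 := by
    intro h0
    rw [h0] at hs6
    norm_num at hs6
  have hDD : ∀ k, (starRingEnd ℂ) (D k) * D k = 1 := by
    intro k
    rw [mul_comm, Complex.mul_conj, Complex.normSq_eq_norm_sq, hD k]
    norm_num
  have hterm : ∀ k, (starRingEnd ℂ) (B 0 k) * C 0 k
      = ((starRingEnd ℂ) α * β / 6) * ((starRingEnd ℂ) (a k) * b k) := by
    intro k
    rw [hBk k, hCk k]
    simp only [map_div₀, map_mul, Complex.conj_ofReal]
    have h1 := hDD k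
    field_simp
    rw [show ((Real.sqrt 6 : ℝ) : ℂ) ^ 2 = ((Real.sqrt 6 : ℝ) : ℂ) * ((Real.sqrt 6 : ℝ) : ℂ) by ring, hs6]
    linear_combination ((starRingEnd ℂ) α * β * (starRingEnd ℂ) (a k) * b k * 6) * h1
  have hsumeq : ∑ k, (starRingEnd ℂ) (B 0 k) * C 0 k
      = ((starRingEnd ℂ) α * β / 6) * ∑ k, ((starRingEnd ℂ) (a k) * b k) := by
    rw [Finset.mul_sum]
    exact Finset.sum_congr rfl (fun k _ => hterm k)
  rw [hsumeq] at h
  set T : ℂ := ∑ k, ((starRingEnd ℂ) (a k) * b k) with hT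
  have hTS : T ∈ S := hsum _ (fun k => hcm (ha k) (hb k))
  have hnorm : ‖(starRingEnd ℂ) α * β / 6‖ = 1 / 6 := by
    rw [norm_div, norm_mul, RCLike.norm_conj, hα, hβ]
    norm_num
  rw [norm_mul, hnorm, mul_pow] at h
  have h2 : ‖T‖ ^ 2 = 6 := by
    nlinarith
  apply hn T hTS
  rw [Complex.normSq_eq_norm_sq, h2]

/-- In `ℂ^6`: in any family of pairwise unbiased bases, at most one member has coordinates which are, up to a common
unimodular rephasing `D` of the coordinates and a phase for each vector, `1/√6` times Eisenstein integers; the same for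
Gaussian integers. All sixth roots of unity are Eisenstein integers and all fourth roots of unity are Gaussian integers,
so this covers Butson-type Hadamard matrices over these roots. -/
theorem result :
    (∀ z : ℂ, z ^ 6 = 1 → z ∈ eisenstein) ∧ (∀ z : ℂ, z ^ 4 = 1 → z ∈ gaussian) ∧
    ∀ (D : Fin 6 → ℂ), (∀ k, ‖D k‖ = 1) → ∀ {ι : Type} (F : ι → Fin 6 → Fin 6 → ℂ),
      (∀ i i', i ≠ i' → IsUnbiasedPair (F i) (F i')) →
      {i | IsTyped eisenstein D (F i)}.Subsingleton ∧ {i | IsTyped gaussian D (F i)}.Subsingleton := by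
  refine ⟨?_, ?_, ?_⟩
  · intro z hz
    have hr := cubeRoot_rel
    have hcube : ∀ w : ℂ, w ^ 3 = 1 → w = 1 ∨ w = cubeRoot ∨ w = -1 - cubeRoot := by
      intro w hw
      have h0 : (w - 1) * (w - cubeRoot) * (w - (-1 - cubeRoot)) = 0 := by
        linear_combination hw - (w - 1) * hr
      rcases mul_eq_zero.1 h0 with h | h
      · rcases mul_eq_zero.1 h with h | h
        · exact Or.inl (by linear_combination h)
        · exact Or.inr (Or.inl (by linear_combination h))
      · exact Or.inr (Or.inr (by linear_combination h))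
    have h0 : (z ^ 3 - 1) * (z ^ 3 + 1) = 0 := by linear_combination hz
    rcases mul_eq_zero.1 h0 with h | h
    · rcases hcube z (by linear_combination h) with h1 | h1 | h1
      · exact ⟨1, 0, by rw [h1]; simp⟩
      · exact ⟨0, 1, by rw [h1]; simp⟩
      · exact ⟨-1, -1, by rw [h1]; push_cast; ring⟩
    · rcases hcube (-z) (by linear_combination -h) with h1 | h1 | h1
      · exact ⟨-1, 0, by
          have : z = -1 := by linear_combination -h1
          rw [this]; simp⟩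
      · exact ⟨0, -1, by
          have : z = -cubeRoot := by linear_combination -h1
          rw [this]; push_cast; ring⟩
      · exact ⟨1, 1, by
          have : z = 1 + cubeRoot := by linear_combination -h1
          rw [this]; push_cast; ring⟩
  · intro z hz
    have hfac : (z - 1) * (z + 1) * (z - Complex.I) * (z + Complex.I) = 0 := by
      have : (z - 1) * (z + 1) * (z - Complex.I) * (z + Complex.I)
          = (z ^ 2 - 1) * (z ^ 2 - Complex.I * Complex.I) := by ring
      rw [this, Complex.I_mul_I]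
      linear_combination hz
    rcases mul_eq_zero.1 hfac with h | h
    · rcases mul_eq_zero.1 h with h | h
      · rcases mul_eq_zero.1 h with h | h
        · exact ⟨1, 0, by simp; linear_combination h⟩
        · exact ⟨-1, 0, by simp; linear_combination h⟩
      · exact ⟨0, 1, by simp; linear_combination h⟩
    · exact ⟨0, -1, by simp; linear_combination h⟩
  · intro D hD ι F hF
    constructor
    · intro i hi i' hi'
      by_contra hne
      refine not_unbiased_of hD (S := eisenstein) (fun hz hw => eis_conj_mul hz hw)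
        (fun f hf => eis_sum _ f (fun i _ => hf i)) ?_ hi hi' (hF i i' hne)
      rintro z ⟨a, b, rfl⟩ h
      rw [normSq_eis] at h
      have : a ^ 2 - a * b + b ^ 2 = 6 := by exact_mod_cast h
      exact eis_form_ne a b this
    · intro i hi i' hi'
      by_contra hne
      refine not_unbiased_of hD (S := gaussian) (fun hz hw => gau_conj_mul hz hw)
        (fun f hf => gau_sum _ f (fun i _ => hf i)) ?_ hi hi' (hF i i' hne)
      rintro z ⟨a, b, rfl⟩ h
      rw [normSq_gau] at h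
      have : a ^ 2 + b ^ 2 = 6 := by exact_mod_cast h
      exact gau_form_ne a b this

end Vale.Agent.Results.P355.A_parity
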